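import Vale.Agent.P181.Embedding

namespace Vale.Agent.Results.P181.FoulkesDetPart

open MvPolynomial Vale.Agent.P181

/-- For every `a ≥ 2` and `b = q * a`, `q ≥ 2`, a `GL_a`-equivariant map from
`Sym^a (Sym^b)` to `Sym^b (Sym^a)` is injective on the forms divisible by `det ^ k`,
`k ≥ 2 q - 3`. -/
theorem result : ∀ a q k : ℕ, 2 ≤ a → 2 ≤ q → 2 * q ≤ k + 3 →
    (∃ L : MvPolynomial (Fin a × Fin a) ℂ →ₗ[ℂ] MvPolynomial (Fin (q * a) × Fin a) ℂ,
      (∀ (g : Matrix (Fin a) (Fin a) ℂ) (P : MvPolynomial (Fin a × Fin a) ℂ),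
        L (act g P) = act g (L P)) ∧
      (∀ P ∈ symPow a a (q * a), L P ∈ symPow (q * a) a a) ∧
      Set.InjOn L (source a (q * a) k)) ∧
    (Even (q * a) → k ≤ q * a → ∃ P ∈ source a (q * a) k, P ≠ 0) := by
  intro a q k ha hq hk
  refine ⟨⟨powerMapDual q a, powerMapDual_act, fun P _ => powerMapDual_mem P,
    powerMapDual_injOn ha hq hk⟩, ?_⟩
  intro heven hle
  refine ⟨detPoly a ^ (q * a), ⟨mem_symPow_iff.2 ⟨?_, fun π => ?_⟩, pow_dvd_pow _ hle⟩,
    pow_ne_zero _ (detPoly_ne_zero a)⟩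
  · convert (isWeightedHomogeneous_det a).pow (q * a) using 1
    funext i
    simp
  · obtain ⟨c, hc⟩ := heven
    rw [map_pow, permPts_det, mul_pow, hc, ← two_mul, pow_mul _ 2 c, ← Int.cast_pow,
      ← Units.val_pow_eq_pow_val, Int.units_sq]
    simp

end Vale.Agent.Results.P181.FoulkesDetPart
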