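import Vale.Agent.P181.QuadDual

namespace Vale.Agent.Results.P181.FoulkesQuadraticBound

open MvPolynomial Vale.Agent.P181

/-- Foulkes' embedding for every `b ≥ (a - 1) ^ 2` and every dimension, together with
surjectivity of the multiplication map `Sym^b (Sym^a) → Sym^a (Sym^b)` in that range. -/
theorem result : ∀ a b n : ℕ, (a - 1) ^ 2 ≤ b →
    (∃ L : MvPolynomial (Fin a × Fin n) ℂ →ₗ[ℂ] MvPolynomial (Fin b × Fin n) ℂ,
      (∀ (g : Matrix (Fin n) (Fin n) ℂ) (P : MvPolynomial (Fin a × Fin n) ℂ),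
        L (act g P) = act g (L P)) ∧
      (∀ P ∈ symPow a n b, L P ∈ symPow b n a) ∧
      Set.InjOn L (symPow a n b : Set (MvPolynomial (Fin a × Fin n) ℂ))) ∧
    symPow a n b ≤ Submodule.span ℂ
      {P | ∃ y : Fin b → MvPolynomial (Fin n) ℂ,
        (∀ t, y t ∈ homogeneousSubmodule (Fin n) ℂ 1) ∧
        P = ∏ t, ∏ i : Fin a, rename (Prod.mk i) (y t)} := by
  intro a b n hb
  refine ⟨⟨multDual a b n, multDual_act, fun P _ => multDual_mem P, multDual_injOn_quad hb⟩, ?_⟩
  intro P hP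
  rw [mem_symPow_iff] at hP
  exact linSpan_pow_le b (symm_mem_linSpan_pow_quad a b hb P
    (mem_prodForms_of_isWeightedHomogeneous hP.1) hP.2)

end Vale.Agent.Results.P181.FoulkesQuadraticBound
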